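import Vale.Agent.P280.H399.WallPole
import Vale.Agent.P280.H170.NL
import Vale.Agent.P280.N2.Defs
import Vale.Agent.P280.N2.Rel

/-! P280, stage 2: the two walls of the chamber `Ch2`. -/

open DirectSum Vale.Agent.P280.T Vale.Agent.P280.H127 Vale.Agent.P280.N
open Vale.Agent.P280.N.H989 Vale.Agent.P280.N2

set_option linter.unusedSectionVars false

namespace Vale.Agent.P280.H399

variable {r : ℕ} {R : Type} [CommRing R] [IsDomain R] [Algebra ℂ R]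
  {𝒜 : ℕ × (Fin r → ℤ) → Submodule ℂ R} [GradedAlgebra 𝒜]
variable {N : ℤ} {n : ℕ} {f : Fin (n + 1) → Fin r → ℤ}
  {β : Fin (n + 1) → Fin (n + 1) → ((Fin r → ℤ) →+ ℤ)} {E F : Fin (n + 1) → Fin (n + 1) → VF R}
  {c : (Fin r → ℤ) →+ ℤ}

theorem wt_cases (hA : AC 𝒜 N n f β E F) (hv : NoVec 𝒜 n f) {μ : Fin r → ℤ} (hμ : Wt 𝒜 μ) :
    (∀ i j, i ≠ j → β i j μ = 0) ∨ (∃ i j, i < j ∧ (μ = f i - f j ∨ μ = -(f i - f j))) ∨
      ∃ i, μ = f i ∨ μ = -f i := by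
  rcases hA.S μ hμ with h | ⟨i, j, hij, h⟩ | h | ⟨h3, i, j, hij, h⟩
  · exact Or.inl h
  · right; left
    rcases lt_or_gt_of_ne hij with h1 | h1
    · exact ⟨i, j, h1, Or.inl h⟩
    · exact ⟨j, i, h1, Or.inr (by rw [h, neg_sub])⟩
  · exact Or.inr (Or.inr h)
  · exact absurd (h ▸ hμ) (hv h3 i j hij)

theorem zero_ne_one' (hA : AC 𝒜 N n f β E F) : (0 : Fin (n + 1)) ≠ 1 := by
  intro h
  have h1 := congrArg Fin.val h
  rw [one_val hA.n2] at h1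
  exact absurd h1 (by simp)

/-- the functionals `M c + s β_{01}` -/
def fn (β : Fin (n + 1) → Fin (n + 1) → ((Fin r → ℤ) →+ ℤ)) (c : (Fin r → ℤ) →+ ℤ) (M s : ℤ) :
    (Fin r → ℤ) →+ ℤ := M • c + s • β 0 1

theorem fn_null (hA : AC 𝒜 N n f β E F) {M s : ℤ} {μ : Fin r → ℤ}
    (h : ∀ i j, i ≠ j → β i j μ = 0) : fn β c M s μ = M * c μ := by
  change M * c μ + s * β 0 1 μ = _
  rw [h 0 1 (zero_ne_one' hA), mul_zero, add_zero]

theorem fn_zero (hA : AC 𝒜 N n f β E F) {M s : ℤ} : fn β c M s (f 0) = M * c (f 0) + s * N := by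
  change M * c (f 0) + s * β 0 1 (f 0) = _
  rw [hA.be 0 1 0 (zero_ne_one' hA), if_pos rfl, if_neg (zero_ne_one' hA), sub_zero]

theorem fn_one (hA : AC 𝒜 N n f β E F) {M s : ℤ} : fn β c M s (f 1) = M * c (f 1) - s * N := by
  change M * c (f 1) + s * β 0 1 (f 1) = _
  rw [hA.be 0 1 1 (zero_ne_one' hA), if_neg (zero_ne_one' hA).symm, if_pos rfl]
  ring

theorem fn_two (hA : AC 𝒜 N n f β E F) {M s : ℤ} {j : Fin (n + 1)} (h0 : j ≠ 0) (h1 : j ≠ 1) :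
    fn β c M s (f j) = M * c (f j) := by
  change M * c (f j) + s * β 0 1 (f j) = _
  rw [hA.be 0 1 j (zero_ne_one' hA), if_neg h0, if_neg h1]
  ring

theorem idx (hA : AC 𝒜 N n f β E F) (j : Fin (n + 1)) : j = 0 ∨ j = 1 ∨ (2 ≤ (j : ℕ) ∧ j ≠ 0 ∧
    j ≠ 1) := by
  have hv1 := one_val hA.n2
  by_cases h0 : j = 0
  · exact Or.inl h0
  by_cases h1 : j = 1
  · exact Or.inr (Or.inl h1)
  refine Or.inr (Or.inr ⟨?_, h0, h1⟩)
  have h3 : (j : ℕ) ≠ 0 := fun h => h0 (Fin.ext h)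
  have h4 : (j : ℕ) ≠ 1 := fun h => h1 (Fin.ext (by rw [h, hv1]))
  omega

/-- the order of the letters for `fn` -/
theorem fn_lt (hA : AC 𝒜 N n f β E F) (hc : Ch2 𝒜 n f c) {M s : ℤ} (hM : 0 < M)
    (h0 : 0 < fn β c M s (f 0))
    (h1 : ∀ j : Fin (n + 1), 2 ≤ (j : ℕ) → M * c (f j) < fn β c M s (f 1))
    {i j : Fin (n + 1)} (hij : i < j) (he : ¬ (i = 0 ∧ j = 1)) :
    0 < fn β c M s (f i - f j) := by
  have hj : 2 ≤ (j : ℕ) ∧ j ≠ 0 ∧ j ≠ 1 := by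
    rcases idx hA j with h | h | h
    · rw [h] at hij
      exact absurd hij (Fin.not_lt_zero i)
    · exfalso
      rcases idx hA i with h' | h' | h'
      · exact he ⟨h', h⟩
      · rw [h, h'] at hij
        exact lt_irrefl _ hij
      · have hv1 := one_val hA.n2
        rw [h] at hij
        have h3 := Fin.lt_def.1 hij
        omega
    · exact h
  rw [map_sub, sub_pos, fn_two hA hj.2.1 hj.2.2]
  rcases idx hA i with h | h | h
  · rw [h]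
    have h3 := hc.neg j hj.1
    nlinarith
  · rw [h]
    exact h1 j hj.1
  · rw [fn_two hA h.2.1 h.2.2]
    exact mul_lt_mul_of_pos_left (hc.ord i j hij) hM

/-- same signs away from the wall `b` -/
theorem sgn (hA : AC 𝒜 N n f β E F) (hv : NoVec 𝒜 n f) (hc : Ch2 𝒜 n f c)
    {g : (Fin r → ℤ) →+ ℤ} {M : ℤ} (hM : 0 < M)
    (hnull : ∀ μ, (∀ i j, i ≠ j → β i j μ = 0) → g μ = M * c μ) {b : Fin r → ℤ}
    (hroot : ∀ i j, i < j → f i - f j ≠ b → 0 < g (f i - f j)) (h0 : 0 < g (f 0))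
    (h1 : f 1 ≠ b → 0 < g (f 1)) (h2 : ∀ j : Fin (n + 1), 2 ≤ (j : ℕ) → g (f j) < 0)
    {μ : Fin r → ℤ} (hμ : Wt 𝒜 μ) (hb : μ ≠ b) (hb' : μ ≠ -b) :
    (0 < g μ ∧ 0 < c μ) ∨ (g μ < 0 ∧ c μ < 0) := by
  rcases wt_cases hA hv hμ with h | ⟨i, j, hij, h⟩ | ⟨i, h⟩
  · have h3 := hnull μ h
    rcases lt_or_gt_of_ne (hc.ne μ hμ) with h4 | h4
    · exact Or.inr ⟨by rw [h3]; exact mul_neg_of_pos_of_neg hM h4, h4⟩
    · exact Or.inl ⟨by rw [h3]; exact mul_pos hM h4, h4⟩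
  · have h3 := hc.ord i j hij
    rcases h with h | h
    · left
      rw [h]
      exact ⟨hroot i j hij (h ▸ hb), by rw [map_sub]; omega⟩
    · right
      have h4 := hroot i j hij (fun h5 => hb' (by rw [h, h5]))
      rw [h, map_neg, map_neg]
      exact ⟨by omega, by rw [map_sub]; omega⟩
  · have h3 : (0 < g (f i) ∧ 0 < c (f i)) ∨ (g (f i) < 0 ∧ c (f i) < 0) := by
      have h01 : c (f 1) < c (f 0) := hc.ord 0 1 (by
        rw [Fin.lt_def, one_val hA.n2]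
        simp)
      have h11 := hc.pos
      rcases idx hA i with h4 | h4 | h4
      · left
        rw [h4]
        exact ⟨h0, by omega⟩
      · left
        rw [h4]
        refine ⟨h1 fun h5 => ?_, h11⟩
        rw [h4] at h
        rcases h with h | h
        · exact hb (by rw [h, h5])
        · exact hb' (by rw [h, h5])
      · exact Or.inr ⟨h2 i h4.1, hc.neg i h4.1⟩
    rcases h with h | h
    · rw [h]
      exact h3
    · rw [h, map_neg, map_neg]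
      rcases h3 with h4 | h4
      · exact Or.inr ⟨by omega, by omega⟩
      · exact Or.inl ⟨by omega, by omega⟩

section walls
variable (hA : AC 𝒜 N n f β E F) (hv : NoVec 𝒜 n f) (hc : Ch2 𝒜 n f c)
include hA hv hc

theorem c01 : c (f 1) < c (f 0) := hc.ord 0 1 (by
  rw [Fin.lt_def, one_val hA.n2]
  simp)

/-- `l` for the wall `f 1` -/
theorem lA_sgn {μ : Fin r → ℤ} (hμ : Wt 𝒜 μ) (hb : μ ≠ f 1) (hb' : μ ≠ -f 1) :
    (0 < fn β c N (c (f 1)) μ ∧ 0 < c μ) ∨ (fn β c N (c (f 1)) μ < 0 ∧ c μ < 0) := by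
  have hN := hA.N0
  have h01 := c01 hA hv hc
  have h1 := hc.pos
  have v0 : fn β c N (c (f 1)) (f 0) = N * c (f 0) + c (f 1) * N := fn_zero hA
  have v1 : fn β c N (c (f 1)) (f 1) = 0 := by rw [fn_one hA]; ring
  have p0 : 0 < fn β c N (c (f 1)) (f 0) := by rw [v0]; nlinarith
  refine sgn hA hv hc hN (fun μ h => fn_null hA h) (fun i j hij _ => ?_) p0
    (fun h => absurd rfl h) (fun j hj => ?_) hμ hb hb'
  · by_cases he : i = 0 ∧ j = 1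
    · rw [he.1, he.2, map_sub, v1, sub_zero]
      exact p0
    · refine fn_lt hA hc hN p0 (fun j hj => ?_) hij he
      rw [v1]
      exact mul_neg_of_pos_of_neg hN (hc.neg j hj)
  · have h2 : j ≠ 0 ∧ j ≠ 1 := by
      rcases idx hA j with h | h | h
      · rw [h] at hj; simp at hj
      · rw [h, one_val hA.n2] at hj; omega
      · exact h.2
    rw [fn_two hA h2.1 h2.2]
    exact mul_neg_of_pos_of_neg hN (hc.neg j hj)

/-- `l` for the wall `f 0 - f 1` -/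
theorem lB_sgn {μ : Fin r → ℤ} (hμ : Wt 𝒜 μ) (hb : μ ≠ f 0 - f 1) (hb' : μ ≠ -(f 0 - f 1)) :
    (0 < fn β c (2 * N) (-(c (f 0) - c (f 1))) μ ∧ 0 < c μ) ∨
      (fn β c (2 * N) (-(c (f 0) - c (f 1))) μ < 0 ∧ c μ < 0) := by
  have hN := hA.N0
  have h01 := c01 hA hv hc
  have h1 := hc.pos
  have v0 : fn β c (2 * N) (-(c (f 0) - c (f 1))) (f 0) = N * (c (f 0) + c (f 1)) := by
    rw [fn_zero hA]; ring
  have v1 : fn β c (2 * N) (-(c (f 0) - c (f 1))) (f 1) = N * (c (f 0) + c (f 1)) := by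
    rw [fn_one hA]; ring
  have p0 : 0 < N * (c (f 0) + c (f 1)) := mul_pos hN (by omega)
  refine sgn hA hv hc (by omega : 0 < 2 * N) (fun μ h => fn_null hA h) (fun i j hij hne => ?_)
    (by rw [v0]; exact p0) (fun _ => by rw [v1]; exact p0) (fun j hj => ?_) hμ hb hb'
  · by_cases he : i = 0 ∧ j = 1
    · exact absurd (by rw [he.1, he.2]) hne
    · refine fn_lt hA hc (by omega : 0 < 2 * N) (by rw [v0]; exact p0) (fun j hj => ?_) hij he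
      rw [v1]
      have h3 := mul_neg_of_pos_of_neg (by omega : 0 < 2 * N) (hc.neg j hj)
      omega
  · have h2 : j ≠ 0 ∧ j ≠ 1 := by
      rcases idx hA j with h | h | h
      · rw [h] at hj; simp at hj
      · rw [h, one_val hA.n2] at hj; omega
      · exact h.2
    rw [fn_two hA h2.1 h2.2]
    exact mul_neg_of_pos_of_neg (by omega) (hc.neg j hj)

/-- the chamber on the other side of the wall `f 1` -/
theorem cA_sgn {μ : Fin r → ℤ} (hμ : Wt 𝒜 μ) (hb : μ ≠ f 1) (hb' : μ ≠ -f 1) :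
    (0 < fn β c (2 * N) (2 * c (f 1) + 1) μ ∧ 0 < c μ) ∨
      (fn β c (2 * N) (2 * c (f 1) + 1) μ < 0 ∧ c μ < 0) := by
  have hN := hA.N0
  have h01 := c01 hA hv hc
  have h1 := hc.pos
  have v0 : fn β c (2 * N) (2 * c (f 1) + 1) (f 0) = N * (2 * c (f 0) + 2 * c (f 1) + 1) := by
    rw [fn_zero hA]; ring
  have v1 : fn β c (2 * N) (2 * c (f 1) + 1) (f 1) = -N := by rw [fn_one hA]; ring
  have p0 : 0 < N * (2 * c (f 0) + 2 * c (f 1) + 1) := mul_pos hN (by omega)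
  refine sgn hA hv hc (by omega : 0 < 2 * N) (fun μ h => fn_null hA h) (fun i j hij _ => ?_)
    (by rw [v0]; exact p0) (fun h => absurd rfl h) (fun j hj => ?_) hμ hb hb'
  · by_cases he : i = 0 ∧ j = 1
    · rw [he.1, he.2, map_sub, v1, v0]
      omega
    · refine fn_lt hA hc (by omega : 0 < 2 * N) (by rw [v0]; exact p0) (fun j hj => ?_) hij he
      rw [v1]
      have h3 := hc.neg j hj
      nlinarith
  · have h2 : j ≠ 0 ∧ j ≠ 1 := by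
      rcases idx hA j with h | h | h
      · rw [h] at hj; simp at hj
      · rw [h, one_val hA.n2] at hj; omega
      · exact h.2
    rw [fn_two hA h2.1 h2.2]
    exact mul_neg_of_pos_of_neg (by omega) (hc.neg j hj)

/-- the chamber on the other side of the wall `f 0 - f 1` -/
theorem cB_sgn {μ : Fin r → ℤ} (hμ : Wt 𝒜 μ) (hb : μ ≠ f 0 - f 1) (hb' : μ ≠ -(f 0 - f 1)) :
    (0 < fn β c (2 * N) (-(c (f 0) - c (f 1) + 1)) μ ∧ 0 < c μ) ∨
      (fn β c (2 * N) (-(c (f 0) - c (f 1) + 1)) μ < 0 ∧ c μ < 0) := by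
  have hN := hA.N0
  have h01 := c01 hA hv hc
  have h1 := hc.pos
  have v0 : fn β c (2 * N) (-(c (f 0) - c (f 1) + 1)) (f 0) = N * (c (f 0) + c (f 1) - 1) := by
    rw [fn_zero hA]; ring
  have v1 : fn β c (2 * N) (-(c (f 0) - c (f 1) + 1)) (f 1) = N * (c (f 0) + c (f 1) + 1) := by
    rw [fn_one hA]; ring
  have p0 : 0 < N * (c (f 0) + c (f 1) - 1) := mul_pos hN (by omega)
  have p1 : 0 < N * (c (f 0) + c (f 1) + 1) := mul_pos hN (by omega)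
  refine sgn hA hv hc (by omega : 0 < 2 * N) (fun μ h => fn_null hA h) (fun i j hij hne => ?_)
    (by rw [v0]; exact p0) (fun _ => by rw [v1]; exact p1) (fun j hj => ?_) hμ hb hb'
  · by_cases he : i = 0 ∧ j = 1
    · exact absurd (by rw [he.1, he.2]) hne
    · refine fn_lt hA hc (by omega : 0 < 2 * N) (by rw [v0]; exact p0) (fun j hj => ?_) hij he
      rw [v1]
      have h3 := mul_neg_of_pos_of_neg (by omega : 0 < 2 * N) (hc.neg j hj)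
      omega
  · have h2 : j ≠ 0 ∧ j ≠ 1 := by
      rcases idx hA j with h | h | h
      · rw [h] at hj; simp at hj
      · rw [h, one_val hA.n2] at hj; omega
      · exact h.2
    rw [fn_two hA h2.1 h2.2]
    exact mul_neg_of_pos_of_neg (by omega) (hc.neg j hj)

/-- uniqueness of a wall point, general form -/
theorem uniq_gen (H : Hyp 𝒜) {b : Fin r → ℤ} {c' : (Fin r → ℤ) →+ ℤ} (hb0 : c' b < 0)
    (hs : ∀ μ, Wt 𝒜 μ → μ ≠ b → μ ≠ -b → (0 < c' μ ∧ 0 < c μ) ∨ (c' μ < 0 ∧ c μ < 0))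
    {y y' : FP 𝒜} (hy : y.Pi (-b)) (ho : ∀ ψ, y.Pi ψ → ψ ≠ -b → 0 < c ψ) (hy' : y'.Pi (-b))
    (ho' : ∀ ψ, y'.Pi ψ → ψ ≠ -b → 0 < c ψ) : SamePoint 𝒜 y.q y'.q := by
  have key : ∀ z : FP 𝒜, z.Pi (-b) → (∀ ψ, z.Pi ψ → ψ ≠ -b → 0 < c ψ) → Pos c' z := by
    intro z hz hoz ψ hψ
    by_cases h1 : ψ = -b
    · rw [h1, map_neg]
      omega
    · have h2 : ψ ≠ b := by
        rintro rfl
        exact H170.not_pi_neg H hψ hz
      have h3 := hoz ψ hψ h1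
      rcases hs ψ ⟨z, hψ⟩ h2 h1 with h4 | h4
      · exact h4.1.le
      · omega
  refine pos_unique H c' (fun μ hμ => ?_) (key y hy ho) (key y' hy' ho')
  by_cases h1 : μ = b
  · rw [h1]; omega
  by_cases h2 : μ = -b
  · rw [h2, map_neg]; omega
  rcases hs μ hμ h1 h2 with h4 | h4
  · omega
  · omega

theorem uniqA (H : Hyp 𝒜) {y y' : FP 𝒜} (hy : y.Pi (-f 1))
    (ho : ∀ ψ, y.Pi ψ → ψ ≠ -f 1 → 0 < c ψ) (hy' : y'.Pi (-f 1))
    (ho' : ∀ ψ, y'.Pi ψ → ψ ≠ -f 1 → 0 < c ψ) : SamePoint 𝒜 y.q y'.q := by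
  refine uniq_gen hA hv hc H (c' := fn β c (2 * N) (2 * c (f 1) + 1)) ?_
    (fun μ hμ h1 h2 => cA_sgn hA hv hc hμ h1 h2) hy ho hy' ho'
  have hN := hA.N0
  rw [fn_one hA]
  have : 2 * N * c (f 1) - (2 * c (f 1) + 1) * N = -N := by ring
  omega

theorem uniqB (H : Hyp 𝒜) {y y' : FP 𝒜} (hy : y.Pi (-(f 0 - f 1)))
    (ho : ∀ ψ, y.Pi ψ → ψ ≠ -(f 0 - f 1) → 0 < c ψ) (hy' : y'.Pi (-(f 0 - f 1)))
    (ho' : ∀ ψ, y'.Pi ψ → ψ ≠ -(f 0 - f 1) → 0 < c ψ) : SamePoint 𝒜 y.q y'.q := by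
  refine uniq_gen hA hv hc H (c' := fn β c (2 * N) (-(c (f 0) - c (f 1) + 1))) ?_
    (fun μ hμ h1 h2 => cB_sgn hA hv hc hμ h1 h2) hy ho hy' ho'
  have hN := hA.N0
  rw [map_sub, fn_one hA, fn_zero hA]
  have : 2 * N * c (f 0) + -(c (f 0) - c (f 1) + 1) * N -
    (2 * N * c (f 1) - -(c (f 0) - c (f 1) + 1) * N) = -(2 * N) := by ring
  omega

theorem wallA_field (H : Hyp 𝒜) {y : FP 𝒜} (hy : y.Pi (-f 1))
    (hoth : ∀ ψ, y.Pi ψ → ψ ≠ -f 1 → 0 < c ψ) {lam : Fin r → ℤ} {v : VF R} (hw : HV 𝒜 lam v)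
    (h0 : ∀ y0 : FP 𝒜, Pos c y0 → RgV y0.q v) :
    ∀ d z, Crd y (-f 1) d z → ∃ k : ℕ, RgV y.q ((iK z) ^ k • v) := by
  have v1 : fn β c N (c (f 1)) (f 1) = 0 := by rw [fn_one hA]; ring
  refine wall_field H (fn β c N (c (f 1))) c hc.ne (fun μ hμ => ?_) hc.pos (fun μ hμ h => ?_) hy
    hoth (fun y1 h1 h2 => uniqA hA hv hc H h1 h2 hy hoth) v1 hw h0
  · by_cases h1 : μ = f 1
    · rw [h1, v1]
      exact ⟨fun h => absurd h (lt_irrefl _), fun h => absurd h (lt_irrefl _)⟩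
    by_cases h2 : μ = -f 1
    · rw [h2, map_neg, v1, neg_zero]
      exact ⟨fun h => absurd h (lt_irrefl _), fun h => absurd h (lt_irrefl _)⟩
    rcases lA_sgn hA hv hc hμ h1 h2 with h3 | h3
    · exact ⟨fun _ => h3.2, fun h => by omega⟩
    · exact ⟨fun h => by omega, fun _ => h3.2⟩
  · by_contra hcon
    push Not at hcon
    rcases lA_sgn hA hv hc hμ hcon.1 hcon.2 with h3 | h3 <;> omega

theorem wallB_field (H : Hyp 𝒜) {y : FP 𝒜} (hy : y.Pi (-(f 0 - f 1)))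
    (hoth : ∀ ψ, y.Pi ψ → ψ ≠ -(f 0 - f 1) → 0 < c ψ) {lam : Fin r → ℤ} {v : VF R}
    (hw : HV 𝒜 lam v) (h0 : ∀ y0 : FP 𝒜, Pos c y0 → RgV y0.q v) :
    ∀ d z, Crd y (-(f 0 - f 1)) d z → ∃ k : ℕ, RgV y.q ((iK z) ^ k • v) := by
  have v1 : fn β c (2 * N) (-(c (f 0) - c (f 1))) (f 0 - f 1) = 0 := by
    rw [map_sub, fn_one hA, fn_zero hA]; ring
  have h01 := c01 hA hv hc
  refine wall_field H (fn β c (2 * N) (-(c (f 0) - c (f 1)))) c hc.ne (fun μ hμ => ?_)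
    (by rw [map_sub]; omega) (fun μ hμ h => ?_) hy
    hoth (fun y1 h1 h2 => uniqB hA hv hc H h1 h2 hy hoth) v1 hw h0
  · by_cases h1 : μ = f 0 - f 1
    · rw [h1, v1]
      exact ⟨fun h => absurd h (lt_irrefl _), fun h => absurd h (lt_irrefl _)⟩
    by_cases h2 : μ = -(f 0 - f 1)
    · rw [h2, map_neg, v1, neg_zero]
      exact ⟨fun h => absurd h (lt_irrefl _), fun h => absurd h (lt_irrefl _)⟩
    rcases lB_sgn hA hv hc hμ h1 h2 with h3 | h3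
    · exact ⟨fun _ => h3.2, fun h => by omega⟩
    · exact ⟨fun h => by omega, fun _ => h3.2⟩
  · by_contra hcon
    push Not at hcon
    rcases lB_sgn hA hv hc hμ hcon.1 hcon.2 with h3 | h3 <;> omega

theorem wallA_fun (H : Hyp 𝒜) {y : FP 𝒜} (hy : y.Pi (-f 1))
    (hoth : ∀ ψ, y.Pi ψ → ψ ≠ -f 1 → 0 < c ψ) {m : Fin r → ℤ} {x : FractionRing R}
    (hx : HK 𝒜 0 m x) (h0 : ∀ y0 : FP 𝒜, Pos c y0 → Rg y0.q x) :
    ∀ d z, Crd y (-f 1) d z → ∃ k : ℕ, Rg y.q ((iK z) ^ k * x) := by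
  obtain ⟨Eu, hEu, hEu0, hEu1, hEu2⟩ := euler 𝒜 H.hX
  intro d z hz
  obtain ⟨k, hk⟩ := wallA_field hA hv hc H hy hoth (hEu0.smul hx)
    (fun y0 hy0 => (hEu2 y0 x).2 (h0 y0 hy0)) d z hz
  rw [smul_smul] at hk
  exact ⟨k, (hEu2 y _).1 hk⟩

theorem wallB_fun (H : Hyp 𝒜) {y : FP 𝒜} (hy : y.Pi (-(f 0 - f 1)))
    (hoth : ∀ ψ, y.Pi ψ → ψ ≠ -(f 0 - f 1) → 0 < c ψ) {m : Fin r → ℤ} {x : FractionRing R}
    (hx : HK 𝒜 0 m x) (h0 : ∀ y0 : FP 𝒜, Pos c y0 → Rg y0.q x) :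
    ∀ d z, Crd y (-(f 0 - f 1)) d z → ∃ k : ℕ, Rg y.q ((iK z) ^ k * x) := by
  obtain ⟨Eu, hEu, hEu0, hEu1, hEu2⟩ := euler 𝒜 H.hX
  intro d z hz
  obtain ⟨k, hk⟩ := wallB_field hA hv hc H hy hoth (hEu0.smul hx)
    (fun y0 hy0 => (hEu2 y0 x).2 (h0 y0 hy0)) d z hz
  rw [smul_smul] at hk
  exact ⟨k, (hEu2 y _).1 hk⟩

end walls

end Vale.Agent.P280.H399
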