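import Vale.Agent.P280.N.A15
import Vale.Agent.P280.H900.Mon

/-! P280, stage 2: the lowest polar point of a rational field, of a rational function. -/

open DirectSum Vale.Agent.P280.T Vale.Agent.P280.H127 Vale.Agent.P280.N

namespace Vale.Agent.P280.H399

variable {r : ℕ} {R : Type} [CommRing R] [IsDomain R] [Algebra ℂ R]
  {𝒜 : ℕ × (Fin r → ℤ) → Submodule ℂ R} [GradedAlgebra 𝒜]

/-- if all elements of degree one have the same weight, then a nonzero rational field has weight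
zero -/
theorem weight_eq_zero (hX : IsTorusManifold 𝒜) {m0 : Fin r → ℤ}
    (h1 : ∀ m, ∀ h ∈ 𝒜 (1, m), h ≠ 0 → m = m0) {lam : Fin r → ℤ} {v : VF R} (hv : HV 𝒜 lam v)
    (hv0 : v ≠ 0) : lam = 0 := by
  have key : ∀ d m, ∀ h ∈ 𝒜 (d, m), h ≠ 0 → m = d • m0 := by
    intro d m h hh hne
    have hle : ∀ w : (Fin r → ℤ) →+ ℤ, d • w m0 ≤ w m := by
      intro w
      refine slope_le hX.gen w (w m0) (⊥ : Ideal R) (fun m' h' hh' h0 => ?_) d m h hh
        (fun h0 => hne ((Submodule.mem_bot R).1 h0))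
      rw [h1 m' h' hh' (fun h2 => h0 (h2 ▸ Ideal.zero_mem _))]
    funext i
    have h2 := hle (Pi.evalAddMonoidHom (fun _ => ℤ) i)
    have h3 := hle (-(Pi.evalAddMonoidHom (fun _ => ℤ) i))
    simp only [AddMonoidHom.neg_apply, Pi.evalAddMonoidHom_apply, smul_neg] at h2 h3
    rw [Pi.smul_apply]
    omega
  by_contra hlam
  apply hv0
  have h0 : ∀ h : R, v (iK h) = 0 := by
    intro h
    induction h using DirectSum.Decomposition.inductionOn 𝒜 with
    | zero => rw [iK_zero, map_zero]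
    | @homogeneous i x =>
      obtain ⟨⟨d, m⟩, hx⟩ : ∃ i' : ℕ × (Fin r → ℤ), i' = i := ⟨i, rfl⟩
      subst hx
      by_contra hne
      by_cases hx0 : (x : R) = 0
      · rw [hx0, iK_zero, map_zero] at hne
        exact hne rfl
      · have hm := key d m x x.2 hx0
        obtain ⟨a, b, n, n', f, hf, g, hg, hg0, e, h2, h3⟩ := hv d m x x.2
        have hf0 : f ≠ 0 := by
          rintro rfl
          rw [iK_zero] at e
          rcases mul_eq_zero.1 e with h4 | h4
          · exact iK_ne_zero hg0 h4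
          · exact hne h4
        have h5 := key _ _ f hf hf0
        have h6 := key _ _ g hg hg0
        apply hlam
        funext i
        have h7 := congrFun h3 i
        have h8 := congrFun hm i
        have h9 := congrFun h5 i
        have h10 := congrFun h6 i
        simp only [Pi.sub_apply, Pi.smul_apply, Pi.zero_apply, nsmul_eq_mul] at h7 h8 h9 h10 ⊢
        rw [h8, h9, h10] at h7
        have h11 : (d : ℤ) * m0 i = ((a : ℤ) - b) * m0 i := by rw [h2]
        linarith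
    | add a b ha hb => rw [iK_add, map_add, ha, hb, add_zero]
  exact Derivation.ext fun x => by
    obtain ⟨a, s, hs, rfl⟩ := IsFractionRing.div_surjective (A := R) x
    have hs0 : iK s ≠ 0 := iK_ne_zero (nonZeroDivisors.ne_zero hs)
    rw [Derivation.zero_apply]
    have h2 : v (iK s * (iK a / iK s)) = 0 := by
      rw [mul_div_cancel₀ _ hs0]
      exact h0 a
    rw [Derivation.leibniz, h0 s, smul_zero, add_zero, smul_eq_mul] at h2
    exact (mul_eq_zero.1 h2).resolve_left hs0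

/-- **A homogeneous rational field of weight `≠ 0` which is regular at all fixed points is
global.** -/
theorem glob_of_fp (H : Hyp 𝒜) {lam : Fin r → ℤ} (hlam : lam ≠ 0) {v : VF R} (hv : HV 𝒜 lam v)
    (h : ∀ y : FP 𝒜, RgV y.q v) : Glob v := by
  have hX := H.hX
  have := hX.domain
  have := hX.normal
  have := hX.finiteType
  have : IsNoetherianRing R := Algebra.FiniteType.isNoetherianRing ℂ R
  by_cases hv0 : v = 0
  · rw [hv0]
    exact Glob.zero
  obtain ⟨N, γ, g, D, hg, hg0, hD, hDh⟩ := H900.exists_den hX hv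
  have hI : ∀ x ∈ cond g D, ∀ i, ((decompose 𝒜 x) i : R) ∈ cond g D :=
    fun x hx i => cond_homogeneous (𝒜 := 𝒜) hg D.toLinearMap
      (fun i h hh => ⟨_, hDh i.1 i.2 h hh⟩) hx i
  -- all zeros of the conductor are vertices
  have hz : ∀ z : R →ₐ[ℂ] ℂ, (∀ x ∈ cond g D, z x = 0) → IsVertex 𝒜 z := by
    intro z hz
    by_contra hnv
    obtain ⟨γ0, q, hq0, hqI, hq1, hq2, ν, hν, f, hf, hqf⟩ := exists_lowest hX (lexF 0 0) hI
      ⟨z, hz, hnv⟩
    have hfix : IsFixed 𝒜 q ν := by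
      intro d m h hh hne
      apply lexF_inj 0 0
      rw [hq1 d m h hh hne, map_nsmul, hν]
    obtain ⟨s, hs, hs'⟩ := H900.exists_cond hX (h ⟨q, ν, hq0, hfix⟩) hD
    exact hs (hqI s hs')
  -- the conductor is everything
  have htop : cond g D = ⊤ := by
    by_contra hne
    obtain ⟨Q, hQ⟩ := Ideal.nonempty_minimalPrimes hne
    have hQp : Q.IsPrime := hQ.1.1
    have hQh := cond_height hg0 D hQ
    have hrad : ∀ m, ∀ x ∈ 𝒜 (1, m), x ∈ Q := by
      intro m x hx
      by_contra hcon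
      obtain ⟨z, hz1, hz2⟩ := exists_point (I := cond g D) (g := x) (fun h2 => hcon (by
        obtain ⟨n, hn⟩ := h2
        exact hQp.mem_of_pow_mem n (hQ.1.2 hn)))
      exact hz2 (hz z hz1 1 m one_pos x hx)
    obtain ⟨e, he, -⟩ := exists_point (I := cond g D) (g := 1) (fun h2 => hne (by
      obtain ⟨n, hn⟩ := h2
      rw [one_pow] at hn
      exact (Ideal.eq_top_iff_one _).2 hn))
    have hev := hz e he
    have hle : mx e ≤ Q := by
      intro x hx
      have h2 : ∀ x : R, x - algebraMap ℂ R (e x) ∈ Q := by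
        intro x
        have hmem : x ∈ Algebra.adjoin ℂ {h : R | ∃ m, h ∈ 𝒜 (1, m)} := by
          rw [hX.gen]
          trivial
        induction hmem using Algebra.adjoin_induction with
        | mem x hx =>
          obtain ⟨m, hm⟩ := hx
          rw [hev 1 m one_pos x hm, map_zero, sub_zero]
          exact hrad m x hm
        | algebraMap c =>
          rw [AlgHom.commutes, Algebra.algebraMap_self, RingHom.id_apply, sub_self]
          exact Ideal.zero_mem _
        | add a b _ _ ha hb =>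
          have h3 := Ideal.add_mem _ ha hb
          rw [map_add, map_add]
          have h4 : a + b - (algebraMap ℂ R (e a) + algebraMap ℂ R (e b)) =
            a - algebraMap ℂ R (e a) + (b - algebraMap ℂ R (e b)) := by ring
          rwa [h4]
        | mul a b _ _ ha hb =>
          have h3 := Ideal.add_mem _ (Ideal.mul_mem_left _ a hb)
            (Ideal.mul_mem_left _ (algebraMap ℂ R (e b)) ha)
          rw [map_mul, map_mul]
          have h4 : a * b - algebraMap ℂ R (e a) * algebraMap ℂ R (e b) =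
            a * (b - algebraMap ℂ R (e b)) +
              algebraMap ℂ R (e b) * (a - algebraMap ℂ R (e a)) := by ring
          rwa [h4]
      have h3 := h2 x
      rwa [mem_mx.1 hx, map_zero, sub_zero] at h3
    have hQe : Q = mx e := by
      refine le_antisymm ?_ hle
      intro x hx
      rw [mem_mx]
      by_contra hx0
      have h2 : x - algebraMap ℂ R (e x) ∈ Q := hle (by
        rw [mem_mx, map_sub, AlgHom.commutes, Algebra.algebraMap_self, RingHom.id_apply, sub_self])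
      have h3 : algebraMap ℂ R (e x) ∈ Q := by
        have h4 := Ideal.sub_mem _ hx h2
        rwa [sub_sub_cancel] at h4
      apply hQp.ne_top
      apply Ideal.eq_top_of_isUnit_mem _ h3
      exact (IsUnit.mk0 _ hx0).map (algebraMap ℂ R)
    -- two weights
    obtain ⟨z0, hz0⟩ := hX.nonempty
    obtain ⟨m1, f1, hf1, hzf1⟩ := (not_isVertex_iff hX.gen z0).1 hz0
    have hf10 : f1 ≠ 0 := fun h0 => hzf1 (by rw [h0, map_zero])
    obtain ⟨m2, f2, hf2, hf20, hm⟩ : ∃ m2, ∃ f2 ∈ 𝒜 (1, m2), f2 ≠ 0 ∧ m2 ≠ m1 := by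
      by_contra hcon
      push Not at hcon
      exact hlam (weight_eq_zero hX hcon hv hv0)
    obtain ⟨i, hi⟩ := Function.ne_iff.1 hm
    set L : (Fin r → ℤ) →+ ℤ := Pi.evalAddMonoidHom (fun _ => ℤ) i with hL
    obtain ⟨m0, ⟨f0, hf0, hf0ne⟩, hmin⟩ := (finite_weights hX).exists_minimalFor L _
      ⟨m1, f1, hf1, hf10⟩
    have hm0 : ∀ m, ∀ x ∈ 𝒜 (1, m), x ≠ 0 → L m0 ≤ L m := by
      intro m x hx hx0
      rcases le_total (L m0) (L m) with h | h
      · exact h
      · exact hmin ⟨x, hx, hx0⟩ h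
    have hX' : IsTorusManifold (H587.co 𝒜 L) := H587.isTorusManifold_co hX
    obtain ⟨m3, f3, hf3, hf30, hm3⟩ : ∃ m3, ∃ f3 ∈ 𝒜 (1, m3), f3 ≠ 0 ∧ L m3 ≠ L m0 := by
      by_cases h3 : L m1 = L m0
      · refine ⟨m2, f2, hf2, hf20, ?_⟩
        rw [← h3]
        exact hi
      · exact ⟨m1, f1, hf1, hf10, h3⟩
    refine two_le_height hX' (H587.mem_co (l := L) hf0) hf0ne ?_ hm3 (H587.mem_co (l := L) hf3)
      hf30 (H587.isVertex_co.2 hev) (by rw [← hQe]; exact hQh)
    intro m x hx hx0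
    obtain ⟨m', hm', x', hx', hx0'⟩ := H587.exists_ne_of_co (LinearMap.id : R →ₗ[ℂ] R) hx hx0
    rw [← hm']
    exact hm0 m' x' hx' hx0'
  intro x
  have h1 : (1 : R) ∈ cond g D := by rw [htop]; trivial
  obtain ⟨y, hy⟩ := h1 x
  refine ⟨y, ?_⟩
  have hKg : iK g ≠ 0 := iK_ne_zero hg0
  apply mul_left_cancel₀ hKg
  rw [← hD, ← iK_mul, ← hy, one_mul]

/-- **The lowest polar point of a field.** -/
theorem lowest_field (H : Hyp 𝒜) (c : (Fin r → ℤ) →+ ℤ) (hc : ∀ μ, Wt 𝒜 μ → c μ ≠ 0)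
    {lam : Fin r → ℤ} (hlam : lam ≠ 0) {v : VF R} (hv : HV 𝒜 lam v)
    (h0 : ∀ y0 : FP 𝒜, Pos c y0 → RgV y0.q v) (hnot : ¬ Glob v) :
    ∃ (y : FP 𝒜) (b : Fin r → ℤ), y.Pi (-b) ∧ 0 < c b ∧ (∀ ψ, y.Pi ψ → ψ ≠ -b → 0 < c ψ) ∧
      ¬ RgV y.q v ∧ ∀ d z, Crd y (-b) d z → ∃ k : ℕ, RgV y.q ((iK z) ^ k • v) := by
  have hr : Set.range (fun i : Fin 0 => (i.elim0 : VF R)) = ∅ := Set.range_eq_empty _
  obtain ⟨y, b, -, h1, h2, h3, h4, h5⟩ := lpp_fin H 0 c hc
    (fun μ _ => ⟨fun h => absurd h (lt_irrefl _), fun h => absurd h (lt_irrefl _)⟩)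
    (W := fun i : Fin 0 => (i.elim0 : VF R)) (χ := fun i => i.elim0)
    (fun y _ => ⟨fun i => i.elim0, fun i => i.elim0, fun i => i.elim0, fun i => i.elim0,
      fun i => i.elim0⟩) hv
    (fun y0 hy0 => by rw [hr, rm_empty]; exact h0 y0 hy0)
    (fun hall => hnot (glob_of_fp H hlam hv fun y => by
      have h1 := hall y (fun d m h _ _ => by simp)
      rwa [hr, rm_empty] at h1))
  rw [hr, rm_empty] at h1
  refine ⟨y, b, h2, h3, h4, h1, fun d z hz => ?_⟩
  obtain ⟨k, hk⟩ := h5 d z hz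
  rw [hr, rm_empty] at hk
  exact ⟨k, hk⟩

/-- **The Euler field of the cone.** A field `x • Eu` is regular at a fixed point iff the function
`x` is. -/
theorem euler (𝒜 : ℕ × (Fin r → ℤ) → Submodule ℂ R) [GradedAlgebra 𝒜]
    (hX : IsTorusManifold 𝒜) : ∃ Eu : VF R, Glob Eu ∧ HV 𝒜 0 Eu ∧
      (∀ d m, ∀ h ∈ 𝒜 (d, m), Eu (iK h) = (d : ℂ) • iK h) ∧
      ∀ (y : FP 𝒜) (x : FractionRing R), RgV y.q (x • Eu) ↔ Rg y.q x := by
  obtain ⟨E, hE⟩ := H587.exists_euler 𝒜
  have hE1 : ∀ d m, ∀ h ∈ 𝒜 (d, m), toVF E (iK h) = (d : ℂ) • iK h := by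
    intro d m h hh
    rw [toVF_iK, hE d m h hh, iK_smul]
  refine ⟨toVF E, toVF_glob E, ?_, hE1, fun y x => ⟨fun h => ?_, fun h => ?_⟩⟩
  · intro d m h hh
    rw [hE1 d m h hh, sub_zero]
    exact (HK.ofR hh).smul _
  · obtain ⟨m1, f1, hf1, hzf1⟩ := (not_isVertex_iff hX.gen y.q).1 y.nv
    have h1 := h f1
    rw [Derivation.smul_apply, smul_eq_mul, hE1 1 m1 f1 hf1, Nat.cast_one, one_smul,
      mul_comm] at h1
    exact Rg.of_mul hzf1 h1
  · exact RgV.smul h (toVF_glob E).rgV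

/-- **There is no global function of degree zero and weight `≠ 0`.** -/
theorem not_glob_smul (hX : IsTorusManifold 𝒜) {Eu : VF R}
    (hEu : ∀ d m, ∀ h ∈ 𝒜 (d, m), Eu (iK h) = (d : ℂ) • iK h) {m : Fin r → ℤ} (hm : m ≠ 0)
    {x : FractionRing R} (hx : HK 𝒜 0 m x) (hx0 : x ≠ 0) : ¬ Glob (x • Eu) := by
  intro hG
  obtain ⟨z0, hz0⟩ := hX.nonempty
  obtain ⟨m1, f1, hf1, hzf1⟩ := (not_isVertex_iff hX.gen z0).1 hz0
  have hf10 : f1 ≠ 0 := fun h0 => hzf1 (by rw [h0, map_zero])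
  have key : ∀ k : ℕ, ∃ a ∈ 𝒜 (1, m1 + k • m), a ≠ 0 := by
    intro k
    induction k with
    | zero => exact ⟨f1, by rwa [zero_smul, add_zero], hf10⟩
    | succ k ih =>
      obtain ⟨a, ha, ha0⟩ := ih
      obtain ⟨b, hb⟩ := hG a
      rw [Derivation.smul_apply, smul_eq_mul, hEu 1 _ a ha, Nat.cast_one, one_smul] at hb
      have h1 : HK 𝒜 ((1 : ℕ) : ℤ) (m1 + (k + 1) • m) (iK b) := by
        rw [← hb]
        exact (hx.mul (HK.ofR ha)).cast (by norm_num) (by rw [add_smul, one_smul]; abel)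
      refine ⟨b, h1.mem, fun h0 => ?_⟩
      rw [h0, iK_zero] at hb
      rcases mul_eq_zero.1 hb with h2 | h2
      · exact hx0 h2
      · exact iK_ne_zero ha0 h2
  have hinj : Function.Injective (fun k : ℕ => m1 + k • m) := by
    intro k k' hk
    have h1 : (k : ℤ) • m = (k' : ℤ) • m := by
      have h2 := add_left_cancel hk
      rwa [← natCast_zsmul, ← natCast_zsmul] at h2
    obtain ⟨i, hi⟩ := Function.ne_iff.1 hm
    have h2 := congrFun h1 i
    rw [Pi.smul_apply, Pi.smul_apply, smul_eq_mul, smul_eq_mul] at h2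
    exact_mod_cast mul_right_cancel₀ hi h2
  exact Set.infinite_range_of_injective hinj ((finite_weights hX).subset (by
    rintro _ ⟨k, rfl⟩
    exact key k))

/-- **The lowest polar point of a function.** -/
theorem lowest_fun (H : Hyp 𝒜) (c : (Fin r → ℤ) →+ ℤ) (hc : ∀ μ, Wt 𝒜 μ → c μ ≠ 0)
    {m : Fin r → ℤ} (hm : m ≠ 0) {x : FractionRing R} (hx : HK 𝒜 0 m x) (hx0 : x ≠ 0)
    (h0 : ∀ y0 : FP 𝒜, Pos c y0 → Rg y0.q x) :
    ∃ (y : FP 𝒜) (b : Fin r → ℤ), y.Pi (-b) ∧ 0 < c b ∧ (∀ ψ, y.Pi ψ → ψ ≠ -b → 0 < c ψ) ∧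
      ¬ Rg y.q x ∧ ∀ d z, Crd y (-b) d z → ∃ k : ℕ, Rg y.q ((iK z) ^ k * x) := by
  obtain ⟨Eu, hEu, hEu0, hEu1, hEu2⟩ := euler 𝒜 H.hX
  obtain ⟨y, b, h1, h2, h3, h4, h5⟩ := lowest_field H c hc (lam := 0 - m)
    (by rwa [zero_sub, neg_ne_zero]) (hEu0.smul hx) (fun y0 hy0 => (hEu2 y0 x).2 (h0 y0 hy0))
    (not_glob_smul H.hX hEu1 hm hx hx0)
  refine ⟨y, b, h1, h2, h3, fun h => h4 ((hEu2 y x).2 h), fun d z hz => ?_⟩
  obtain ⟨k, hk⟩ := h5 d z hz
  rw [smul_smul] at hk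
  exact ⟨k, (hEu2 y _).1 hk⟩

end Vale.Agent.P280.H399
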