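import Vale.Agent.P280.H399.Low
import Vale.Agent.P280.N.A01
import Vale.Agent.P280.N.A04

/-! P280, stage 2: at a wall point the poles of the fields (functions) which are regular at the
source are along the wall only. -/

open DirectSum Vale.Agent.P280.T Vale.Agent.P280.H127 Vale.Agent.P280.N

namespace Vale.Agent.P280.H399

variable {r : ℕ} {R : Type} [CommRing R] [IsDomain R] [Algebra ℂ R]
  {𝒜 : ℕ × (Fin r → ℤ) → Submodule ℂ R} [GradedAlgebra 𝒜]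

omit [IsDomain R] in
/-- coordinates at proportional points -/
theorem same_crd {y y' : FP 𝒜} (h : SamePoint 𝒜 y.q y'.q) {χ : Fin r → ℤ} {d : ℕ} {z : R}
    (hz : Crd y χ d z) : Crd y' χ d z := by
  have hν := A04.samePoint_nu h
  obtain ⟨c, hc, h1⟩ := h
  obtain ⟨hz1, hz2, t, ht, htw, htz⟩ := hz
  obtain ⟨σ, hσ⟩ := A04.exists_scale (𝒜 := 𝒜) c
  have hq : ∀ a : R, y'.q a = y.q (σ a) := by
    intro a
    have h2 := algHom_ext_graded 𝒜 (F := y'.q) (G := y.q.comp σ) (fun i a ha => by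
      rw [AlgHom.comp_apply, hσ i.1 i.2 a ha, map_smul, smul_eq_mul]
      exact h1 i.1 i.2 a ha)
    rw [h2, AlgHom.comp_apply]
  refine ⟨by rw [← hν]; exact hz1, by rw [h1 d _ z hz1, hz2, mul_zero],
    t.comp σ.toLinearMap, ?_, ?_, ?_⟩
  · intro a b
    have h2 := ht (σ a) (σ b)
    rw [LinearMap.comp_apply, LinearMap.comp_apply, LinearMap.comp_apply, AlgHom.toLinearMap_apply,
      AlgHom.toLinearMap_apply, AlgHom.toLinearMap_apply, map_mul, h2, hq, hq]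
  · intro d' m a ha h2
    rw [LinearMap.comp_apply, AlgHom.toLinearMap_apply, hσ d' m a ha, map_smul] at h2
    rw [← hν]
    exact htw d' m a ha (fun h3 => h2 (by rw [h3, smul_zero]))
  · rw [LinearMap.comp_apply, AlgHom.toLinearMap_apply, hσ d _ z hz1, map_smul, smul_eq_mul]
    exact mul_ne_zero (pow_ne_zero d hc) htz

/-- regularity of `z ^ k • v` at proportional points -/
theorem same_rgV_pow (H : Hyp 𝒜) {y y' : FP 𝒜} (h : SamePoint 𝒜 y.q y'.q) {lam : Fin r → ℤ}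
    {v : VF R} (hv : HV 𝒜 lam v) {d : ℕ} {m : Fin r → ℤ} {z : R} (hz : z ∈ 𝒜 (d, m)) {k : ℕ}
    (hr : RgV y.q ((iK z) ^ k • v)) : RgV y'.q ((iK z) ^ k • v) := by
  have hzk : ∀ k : ℕ, HK 𝒜 ((k * d : ℕ) : ℤ) (k • m) (iK z ^ k) := by
    intro k
    have h1 := SetLike.pow_mem_graded k hz
    rw [← iK_pow]
    exact (HK.ofR (show z ^ k ∈ 𝒜 (k * d, k • m) from h1)).cast rfl rfl
  intro a
  induction a using DirectSum.Decomposition.inductionOn 𝒜 with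
  | zero =>
    rw [iK_zero, map_zero]
    exact Rg.zero
  | @homogeneous i a =>
    have h1 := hr a
    rw [Derivation.smul_apply, smul_eq_mul] at h1 ⊢
    exact A04.same_rg H h ((hzk k).mul (hv i.1 i.2 a a.2)) h1
  | add a b ha hb =>
    rw [iK_add, map_add]
    exact ha.add hb

/-- **Poles of fields along a wall.** -/
theorem wall_field (H : Hyp 𝒜) (l c : (Fin r → ℤ) →+ ℤ) (hc : ∀ μ, Wt 𝒜 μ → c μ ≠ 0)
    (hlc : ∀ μ, Wt 𝒜 μ → (0 < l μ → 0 < c μ) ∧ (l μ < 0 → c μ < 0)) {b : Fin r → ℤ}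
    (hcb : 0 < c b) (hl0 : ∀ μ, Wt 𝒜 μ → l μ = 0 → μ = b ∨ μ = -b) {y : FP 𝒜}
    (hy : y.Pi (-b)) (hoth : ∀ ψ, y.Pi ψ → ψ ≠ -b → 0 < c ψ)
    (hun : ∀ y1 : FP 𝒜, y1.Pi (-b) → (∀ ψ, y1.Pi ψ → ψ ≠ -b → 0 < c ψ) →
      SamePoint 𝒜 y1.q y.q) (hlb : l b = 0) {lam : Fin r → ℤ} {v : VF R} (hv : HV 𝒜 lam v)
    (h0 : ∀ y0 : FP 𝒜, Pos c y0 → RgV y0.q v) :
    ∀ d z, Crd y (-b) d z → ∃ k : ℕ, RgV y.q ((iK z) ^ k • v) := by
  intro d z hz
  by_cases hr : RgV y.q v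
  · exact ⟨0, by rwa [pow_zero, one_smul]⟩
  have hlow : Low l y := by
    refine (low_iff H l y).2 fun ψ hψ => ?_
    by_cases hψb : ψ = -b
    · rw [hψb, map_neg, hlb, neg_zero]
    · by_contra hcon
      have h1 := (hlc ψ ⟨y, hψ⟩).2 (not_le.1 hcon)
      have h2 := hoth ψ hψ hψb
      omega
  have hre : Set.range (fun i : Fin 0 => (i.elim0 : VF R)) = ∅ := Set.range_eq_empty _
  obtain ⟨y1, b1, h1, h2, h3, h4, h5, h6⟩ := lpp_fin H l c hc hlc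
    (W := fun i : Fin 0 => (i.elim0 : VF R)) (χ := fun i => i.elim0)
    (fun y _ => ⟨fun i => i.elim0, fun i => i.elim0, fun i => i.elim0, fun i => i.elim0,
      fun i => i.elim0⟩) hv
    (fun y0 hy0 => by rw [hre, rm_empty]; exact h0 y0 hy0)
    (fun hall => hr (by
      have h1 := hall y hlow
      rwa [hre, rm_empty] at h1))
  have hb1 : b1 = b := by
    have hp := (low_iff H l y1).1 h1 _ h3
    rw [map_neg] at hp
    have h7 : l (-b1) = 0 := by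
      rw [map_neg]
      by_contra hne
      have h8 := (hlc (-b1) ⟨y1, h3⟩).1 (by rw [map_neg]; omega)
      rw [map_neg] at h8
      omega
    rcases hl0 (-b1) ⟨y1, h3⟩ h7 with h8 | h8
    · exfalso
      have h9 : c (-b1) = c b := by rw [h8]
      rw [map_neg] at h9
      omega
    · exact neg_injective h8
  subst hb1
  have hs := hun y1 h3 h5
  obtain ⟨k, hk⟩ := h6 d z (same_crd (A04.samePoint_symm hs) hz)
  rw [hre, rm_empty] at hk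
  exact ⟨k, same_rgV_pow H hs hv hz.1 hk⟩

/-- **Poles of functions along a wall.** -/
theorem wall_fun (H : Hyp 𝒜) (l c : (Fin r → ℤ) →+ ℤ) (hc : ∀ μ, Wt 𝒜 μ → c μ ≠ 0)
    (hlc : ∀ μ, Wt 𝒜 μ → (0 < l μ → 0 < c μ) ∧ (l μ < 0 → c μ < 0)) {b : Fin r → ℤ}
    (hcb : 0 < c b) (hl0 : ∀ μ, Wt 𝒜 μ → l μ = 0 → μ = b ∨ μ = -b) {y : FP 𝒜}
    (hy : y.Pi (-b)) (hoth : ∀ ψ, y.Pi ψ → ψ ≠ -b → 0 < c ψ)
    (hun : ∀ y1 : FP 𝒜, y1.Pi (-b) → (∀ ψ, y1.Pi ψ → ψ ≠ -b → 0 < c ψ) →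
      SamePoint 𝒜 y1.q y.q) (hlb : l b = 0) {m : Fin r → ℤ} {x : FractionRing R}
    (hx : HK 𝒜 0 m x) (h0 : ∀ y0 : FP 𝒜, Pos c y0 → Rg y0.q x) :
    ∀ d z, Crd y (-b) d z → ∃ k : ℕ, Rg y.q ((iK z) ^ k * x) := by
  obtain ⟨Eu, hEu, hEu0, hEu1, hEu2⟩ := euler 𝒜 H.hX
  intro d z hz
  obtain ⟨k, hk⟩ := wall_field H l c hc hlc hcb hl0 hy hoth hun hlb (hEu0.smul hx)
    (fun y0 hy0 => (hEu2 y0 x).2 (h0 y0 hy0)) d z hz
  rw [smul_smul] at hk
  exact ⟨k, (hEu2 y _).1 hk⟩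

end Vale.Agent.P280.H399
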