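import Vale.Agent.P280.N.A06
import Vale.Agent.P280.H170.NL

/-! P280, plan N: functions on a lowest line (independent of `N/A19`). -/

open DirectSum Vale.Agent.P280.T Vale.Agent.P280.H127

namespace Vale.Agent.P280.N

variable {r : ℕ} {R : Type} [CommRing R] [IsDomain R] [Algebra ℂ R]
  {𝒜 : ℕ × (Fin r → ℤ) → Submodule ℂ R} [GradedAlgebra 𝒜]

namespace XF

set_option linter.unusedSectionVars false

/-- Krull's intersection theorem at a point -/
theorem krull [IsNoetherianRing R] {q : R →ₐ[ℂ] ℂ} {z a : R} (hz : q z = 0)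
    (h : ∀ n : ℕ, ∃ s b : R, q s ≠ 0 ∧ s * a = z ^ n * b) : a = 0 := by
  set P : Ideal R := RingHom.ker (q : R →+* ℂ) with hP
  have hPp : P.IsPrime := RingHom.ker_isPrime _
  have : IsNoetherianRing (Localization.AtPrime P) :=
    IsLocalization.isNoetherianRing P.primeCompl _ inferInstance
  have h1 := Ideal.iInf_pow_eq_bot_of_isLocalRing
    (IsLocalRing.maximalIdeal (Localization.AtPrime P)) (Ideal.IsPrime.ne_top inferInstance)
  have h2 : algebraMap R (Localization.AtPrime P) a ∈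
      ⨅ i : ℕ, (IsLocalRing.maximalIdeal (Localization.AtPrime P)) ^ i := by
    rw [Ideal.mem_iInf]
    intro n
    obtain ⟨s, b, hs, e⟩ := h n
    have hsP : s ∉ P := fun h0 => hs h0
    have h3 : IsUnit (algebraMap R (Localization.AtPrime P) s) :=
      IsLocalization.map_units (M := P.primeCompl) _ ⟨s, hsP⟩
    have hzP : z ∈ P := hz
    have h5 : algebraMap R (Localization.AtPrime P) z ∈
        IsLocalRing.maximalIdeal (Localization.AtPrime P) :=
      (IsLocalization.AtPrime.to_map_mem_maximal_iff _ P z).2 hzP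
    have h4 : algebraMap R (Localization.AtPrime P) s * algebraMap R (Localization.AtPrime P) a ∈
        (IsLocalRing.maximalIdeal (Localization.AtPrime P)) ^ n := by
      rw [← map_mul, e, map_mul, map_pow]
      exact Ideal.mul_mem_right _ _ (Ideal.pow_mem_pow h5 n)
    exact (Ideal.unit_mul_mem_iff_mem _ h3).1 h4
  rw [h1, Ideal.mem_bot] at h2
  have h3 := (IsLocalization.injective (Localization.AtPrime P)
    (le_nonZeroDivisors_of_noZeroDivisors (fun h0 => h0 (Ideal.zero_mem P)) :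
      P.primeCompl ≤ nonZeroDivisors R))
  exact h3 (by rw [h2, map_zero])

theorem pi_ne (H : Hyp 𝒜) (y : FP 𝒜) {χ : Fin r → ℤ} (h : y.Pi χ) : χ ≠ 0 := by
  rintro rfl
  exact H.iso y.q y.ν y.nv y.fix h

/-- every tangent weight has a coordinate -/
theorem exists_crd (H : Hyp 𝒜) (y : FP 𝒜) {χ : Fin r → ℤ} (h : y.Pi χ) :
    ∃ d z, Crd y χ d z := by
  have hχ := pi_ne H y h
  obtain ⟨v, hv, hw, h0⟩ := h
  obtain ⟨d, m, x, hx, hne⟩ := h0 0
  rw [zero_mul, zero_mul] at hne
  have hm := hw d m x hx hne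
  subst hm
  refine ⟨d, x, hx, ?_, v, hv, hw, hne⟩
  by_contra hq
  have h1 := y.fix d _ x hx hq
  exact hχ (by simpa using h1)

theorem crd_ne {y : FP 𝒜} {χ : Fin r → ℤ} {d : ℕ} {z : R} (h : Crd y χ d z) : z ≠ 0 := by
  rintro rfl
  obtain ⟨-, -, t, -, -, h0⟩ := h
  exact h0 (map_zero t)

/-- the functions on the lowest line are powers of the coordinate times a unit -/
theorem factor (H : Hyp 𝒜) (y : FP 𝒜) (l : (Fin r → ℤ) →+ ℤ) {a : Fin r → ℤ} (ha : l a = 0)
    (hl : ∀ ψ, y.Pi ψ → ψ ≠ -a → 0 < l ψ) {dz : ℕ} {z : R} (hz : Crd y (-a) dz z) {d : ℤ}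
    {m : Fin r → ℤ} {x : FractionRing R} (hx : HK 𝒜 d m x) (hr : Rg y.q x)
    (hm : l m = d * l y.ν) (hx0 : x ≠ 0) : ∃ (n : ℕ) (x' : FractionRing R) (c : ℂ), c ≠ 0 ∧
      Val y.q x' c ∧ x = iK z ^ n * x' ∧ m = d • y.ν - (n : ℤ) • a := by
  have : IsNoetherianRing R := by
    have := H.hX.finiteType
    exact Algebra.FiniteType.isNoetherianRing ℂ R
  have hz0 : iK z ≠ 0 := iK_ne_zero (crd_ne hz)
  have hlz : l (dz • y.ν + -a) = (dz : ℤ) * l y.ν := by
    rw [map_add, map_neg, ha, map_nsmul, nsmul_eq_mul, neg_zero, add_zero]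
  -- the homogeneity of a quotient
  have hHK : ∀ (n : ℕ) (x' : FractionRing R), x = iK z ^ n * x' →
      HK 𝒜 (d - n * dz) (m - (n : ℤ) • (dz • y.ν + -a)) x' := by
    intro n
    induction n with
    | zero =>
      intro x' e
      rw [pow_zero, one_mul] at e
      subst e
      exact hx.cast (by push_cast; ring) (by simp)
    | succ n ih =>
      intro x' e
      have e1 : x = iK z ^ n * (iK z * x') := by rw [e]; ring
      have h1 := (((HK.ofR (𝒜 := 𝒜) hz.1).inv hz0).mul (ih _ e1))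
      rw [← mul_assoc, inv_mul_cancel₀ hz0, one_mul] at h1
      refine h1.cast (by push_cast; ring) ?_
      push_cast
      rw [add_smul, one_smul]
      abel
  by_cases hcon : ∃ (n : ℕ) (x' : FractionRing R) (c : ℂ), c ≠ 0 ∧ Val y.q x' c ∧
      x = iK z ^ n * x'
  · obtain ⟨n, x', c, hc, hv, e⟩ := hcon
    refine ⟨n, x', c, hc, hv, e, ?_⟩
    have h1 := (hHK n x' e).weight H.hX y.nv y.fix hv hc
    have h2 : m = (d - (n : ℤ) * (dz : ℤ)) • y.ν + (n : ℤ) • (dz • y.ν + -a) := by
      rw [← h1]; abel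
    rw [h2, sub_smul, smul_add, smul_neg, mul_smul, natCast_zsmul _ dz]
    abel
  · exfalso
    push Not at hcon
    have key : ∀ n : ℕ, ∃ x', Rg y.q x' ∧ x = iK z ^ n * x' := by
      intro n
      induction n with
      | zero => exact ⟨x, hr, by rw [pow_zero, one_mul]⟩
      | succ n ih =>
        obtain ⟨x', hx', e⟩ := ih
        obtain ⟨c, hc⟩ := hx'.val
        have hc0 : c = 0 := by
          by_contra h0
          exact hcon n x' c h0 hc e
        subst hc0
        obtain ⟨x'', h1, h2⟩ := lf2' H y l hl hz (hHK n x' e) hx' (by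
          rw [map_sub, map_zsmul, hlz, hm, smul_eq_mul]
          ring) hc
        exact ⟨x'', h1, by rw [e, h2]; ring⟩
    obtain ⟨b, s, hs, e⟩ := hr
    have hb : b = 0 := by
      refine krull hz.2.1 fun n => ?_
      obtain ⟨x', ⟨b', s', hs', e'⟩, h2⟩ := key n
      refine ⟨s', s * b', hs', iK_inj ?_⟩
      show iK (s' * b) = iK (z ^ n * (s * b'))
      rw [iK_mul, iK_mul, iK_mul, iK_pow, ← e, ← e', h2]
      ring
    rw [hb, iK_zero] at e
    rcases mul_eq_zero.1 e with h3 | h3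
    · exact iK_ne_zero (ne_zero_of_q hs) h3
    · exact hx0 h3

end XF

end Vale.Agent.P280.N
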